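import Vale.Agent.P284.H478.T.KazFi
import Vale.Agent.P284.H136.T.Grp
import Vale.Agent.P284.H213.G.Rep
import Vale.Agent.P284.H894.W.Fib

/-!
# P284 (helper494), T3⁺: if maximality fails, the quotient torus (group theory)
-/

open Function

noncomputable section

namespace Vale.Agent.P284.H494.T

open Vale.Agent.P272.K Vale.Agent.P284.H894.V Vale.Agent.P284.H119.Kaz Vale.Agent.P284.H213.Grp
  Vale.Agent.P284.H494.N Vale.Agent.P284.H988.N Vale.Agent.P284.H136.T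

/-- Virtual indicability goes down to a subgroup of finite index. -/
theorem virtInd_down {G : Type*} [Group G] (S : Subgroup G) [hS : S.FiniteIndex]
    (h : VirtIndicable G) : VirtIndicable S := by
  obtain ⟨L, hL, φ, hφ⟩ := h
  let i : L.subgroupOf S →* L :=
    { toFun := fun x => ⟨x.1.1, x.2⟩
      map_one' := rfl
      map_mul' := fun _ _ => rfl }
  let φ' : L.subgroupOf S →* Multiplicative ℤ := φ.comp i
  obtain ⟨g, hg⟩ := hφ (Multiplicative.ofAdd 1)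
  obtain ⟨m, hm0, -, hm⟩ := Subgroup.exists_pow_mem_of_index_ne_zero hS.index_ne_zero (g : G)
  let x : L.subgroupOf S := ⟨⟨(g : G) ^ m, hm⟩, by
    rw [Subgroup.mem_subgroupOf]
    exact L.pow_mem g.2 m⟩
  have hx : φ' x = Multiplicative.ofAdd (m : ℤ) := by
    have h1 : i x = g ^ m := rfl
    show φ (i x) = _
    rw [h1, map_pow, hg, ← ofAdd_nsmul, nsmul_eq_mul, mul_one]
  have hinf : Infinite φ'.range := by
    refine Infinite.of_injective (fun k : ℕ => (⟨φ' (x ^ k), x ^ k, rfl⟩ : φ'.range)) ?_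
    intro k l hkl
    have h1 : φ' (x ^ k) = φ' (x ^ l) := congrArg Subtype.val hkl
    rw [map_pow, map_pow, hx, ← ofAdd_nsmul, ← ofAdd_nsmul, nsmul_eq_mul, nsmul_eq_mul] at h1
    have h2 : (k : ℤ) * m = l * m := Multiplicative.ofAdd.injective h1
    have h3 : (m : ℤ) ≠ 0 := by
      exact_mod_cast hm0.ne'
    exact_mod_cast mul_right_cancel₀ h3 h2
  let e : Multiplicative ℤ ≃* φ'.range := intCyclicMulEquiv
  exact ⟨L.subgroupOf S, inferInstance, e.symm.toMonoidHom.comp φ'.rangeRestrict,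
    e.symm.surjective.comp φ'.rangeRestrict_surjective⟩

/-- finite range on a subgroup which covers by finitely many cosets -/
theorem finRepIn_cover {Γ : Type} [Group Γ] {K K' : Subgroup Γ} (h : H213.G.FinRepIn Γ K)
    (F : Set Γ) (hF : F.Finite) (hc : ∀ g ∈ K', ∃ f ∈ F, f⁻¹ * g ∈ K) : H213.G.FinRepIn Γ K' := by
  intro V _ _ _ ρ
  have h1 := (hF.prod (h V ρ)).image fun x : Γ × (V →ₗ[ℝ] V) => ρ x.1 * x.2
  refine h1.subset ?_
  rintro _ ⟨g, hg, rfl⟩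
  obtain ⟨f, hf, hk⟩ := hc g hg
  refine ⟨(f, ρ (f⁻¹ * g)), ⟨hf, f⁻¹ * g, hk, rfl⟩, ?_⟩
  show ρ f * ρ (f⁻¹ * g) = ρ g
  rw [← map_mul, mul_inv_cancel_left]

/-- **The quotient torus**, group theory. -/
theorem maxGrp {Γ : Type} [Group Γ] {G : Subgroup Γ} {q : ℕ} {A : Γ →* (Cm q ≃ₗ[ℂ] Cm q)}
    {c : Γ → Cm q} {K : Subgroup Γ} (hD : ADat Γ G q A c) (hK : ∀ g, g ∈ K ↔ g ∈ G ∧ c g = 0)
    (hfg : Group.FG K) (hnvi : ¬ VirtIndicable K) (hfr : H213.G.FinRepIn Γ K) (hnk : ¬ Kazhdan K)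
    (hcc : ∀ g ∈ G, (∀ h ∈ K, g * h = h * g) → c g = 0 → g = 1) (hmax : ¬ MaxT Γ G q c K) :
    ∃ (M : Subgroup Γ) (_ : M.Normal) (q₂ : ℕ) (L : Cm q →ₗ[ℂ] Cm q₂)
      (A₁ : Γ ⧸ M →* (Cm q₂ ≃ₗ[ℂ] Cm q₂)) (c₁ : Γ ⧸ M → Cm q₂) (K₁ : Subgroup (Γ ⧸ M)),
      q₂ < q ∧ Surjective L ∧ (∀ g : Γ, c₁ (g : Γ ⧸ M) = L (c g)) ∧
      (∀ (g : Γ) v, L (A g v) = A₁ (g : Γ ⧸ M) (L v)) ∧
      ADat (Γ ⧸ M) (G.map (QuotientGroup.mk' M)) q₂ A₁ c₁ ∧
      (∀ g, g ∈ K₁ ↔ g ∈ G.map (QuotientGroup.mk' M) ∧ c₁ g = 0) ∧ Group.FG K₁ ∧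
      ¬ VirtIndicable K₁ ∧ H213.G.FinRepIn (Γ ⧸ M) K₁ ∧ ¬ Kazhdan K₁ := by
  classical
  have hGn := hD.normal
  have hP : PreT Γ G q A c K := PreT.of_core hD hK hfg hnvi
  obtain ⟨q₂, hq, L, A₂, hL, hLA, hP₂⟩ := hP.torus hmax
  have hKn := hP.normal
  -- the kernel of `L ∘ c` in `G`, intersected with the centralizer of `K`
  let Q : Subgroup Γ := hP₂.dat.lat.ker.map G.subtype
  have hQm : ∀ g, g ∈ Q ↔ g ∈ G ∧ L (c g) = 0 := by
    intro g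
    constructor
    · rintro ⟨x, hx, rfl⟩
      exact ⟨x.2, hx⟩
    · rintro ⟨hg, hg0⟩
      exact ⟨⟨g, hg⟩, hg0, rfl⟩
  have hQn : Q.Normal := hP₂.dat.ker_normal hQm
  have hcent : ∀ g, g ∈ Subgroup.centralizer (K : Set Γ) ↔ ∀ k ∈ K, g * k = k * g := fun g => by
    rw [Subgroup.mem_centralizer_iff]
    exact ⟨fun h k hk => (h k hk).symm, fun h k hk => (h k hk).symm⟩
  have hCn : (Subgroup.centralizer (K : Set Γ)).Normal := Subgroup.normal_centralizer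
  let M : Subgroup Γ := Q ⊓ Subgroup.centralizer (K : Set Γ)
  have hMn : M.Normal := inferInstance
  have hMm : ∀ g, g ∈ M ↔ (g ∈ G ∧ L (c g) = 0) ∧ ∀ k ∈ K, g * k = k * g := fun g =>
    and_congr (hQm g) (hcent g)
  obtain ⟨A₁, c₁, hc₁, hA₁, hP₁⟩ := hP₂.quo M (fun g hg => ((hMm g).1 hg).1.1)
    (fun g hg => ((hMm g).1 hg).1.2)
  let K₁ : Subgroup (Γ ⧸ M) := hP₁.dat.lat.ker.map (G.map (QuotientGroup.mk' M)).subtype
  have hK₁ : ∀ g, g ∈ K₁ ↔ g ∈ G.map (QuotientGroup.mk' M) ∧ c₁ g = 0 := by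
    intro g
    constructor
    · rintro ⟨x, hx, rfl⟩
      exact ⟨x.2, hx⟩
    · rintro ⟨hg, hg0⟩
      exact ⟨⟨g, hg⟩, hg0, rfl⟩
  have hle : K.map (QuotientGroup.mk' M) ≤ K₁ := by
    rintro _ ⟨k, hk, rfl⟩
    exact (hK₁ _).2 ⟨⟨k, hP.le hk, rfl⟩, hP₁.sub _ ⟨k, hk, rfl⟩⟩
  -- `K₁` is covered by finitely many cosets of the image of `K`
  obtain ⟨F, hF, hFc⟩ := hP₂.good
  have hcov : ∀ g ∈ K₁, ∃ f ∈ (fun x : G => ((x : Γ) : Γ ⧸ M)) '' F,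
      f⁻¹ * g ∈ K.map (QuotientGroup.mk' M) := by
    intro g hg
    obtain ⟨⟨x, hxG, rfl⟩, hg0⟩ := (hK₁ g).1 hg
    have hx0 : L (c x) = 0 := (hc₁ x).symm.trans hg0
    obtain ⟨f, hf, k, hk, d, hd, hd0, he⟩ := hFc ⟨x, hxG⟩ hx0
    refine ⟨_, ⟨f, hf, rfl⟩, (k : Γ), hk, ?_⟩
    have hdM : (d : Γ) ∈ M := (hMm d).2 ⟨⟨d.2, hd0⟩, fun k' hk' =>
      congrArg Subtype.val (hd ⟨k', hP.le hk'⟩ hk')⟩
    have he' : x = (f : Γ) * k * d := congrArg Subtype.val he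
    show ((k : Γ) : Γ ⧸ M) = (((f : Γ) : Γ ⧸ M))⁻¹ * ((x : Γ) : Γ ⧸ M)
    have h1 : (((d : Γ) : Γ ⧸ M)) = 1 := (QuotientGroup.eq_one_iff _).2 hdM
    rw [he', QuotientGroup.mk_mul, QuotientGroup.mk_mul, h1, mul_one, inv_mul_cancel_left]
  have hfi : ((K.map (QuotientGroup.mk' M)).subgroupOf K₁).FiniteIndex :=
    fi_of_cover (hF.image _) hcov
  -- `K` is isomorphic to its image
  have hinj : Injective ((QuotientGroup.mk' M).subgroupMap K) := by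
    rw [injective_iff_map_eq_one]
    intro k hk
    have h1 : ((k : Γ) : Γ ⧸ M) = 1 := congrArg Subtype.val hk
    have h2 : (k : Γ) ∈ M := (QuotientGroup.eq_one_iff _).1 h1
    exact Subtype.ext (hcc k (hP.le k.2) ((hMm _).1 h2).2 (hP.sub k k.2))
  let e : K ≃* K.map (QuotientGroup.mk' M) :=
    MulEquiv.ofBijective _ ⟨hinj, (QuotientGroup.mk' M).subgroupMap_surjective K⟩
  let e' : K ≃* (K.map (QuotientGroup.mk' M)).subgroupOf K₁ :=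
    e.trans (Subgroup.subgroupOfEquivOfLe hle).symm
  refine ⟨M, hMn, q₂, L, A₁, c₁, K₁, hq, hL, hc₁, fun g v => (hLA g v).trans (hA₁ g (L v)),
    hP₁.dat, hK₁, ?_, ?_, ?_, ?_⟩
  · exact H894.W.fg_of_finiteIndex ((K.map (QuotientGroup.mk' M)).subgroupOf K₁)
      (Group.fg_of_surjective (f := e'.toMonoidHom) e'.surjective)
  · exact fun hv => hnvi (virtInd_congr e' (virtInd_down _ hv))
  · exact finRepIn_cover (hfr.of_quotient (QuotientGroup.mk' M)) _ (hF.image _) hcov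
  · exact fun hk => hnk ((H478.T.kazhdan_sub hk
      ((K.map (QuotientGroup.mk' M)).subgroupOf K₁)).of_equiv e'.symm)

end Vale.Agent.P284.H494.T
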