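import Vale.Agent.P284.H650.T.Spec
import Vale.Agent.P284.H213.N.Asm
import Vale.Agent.P284.H494.T.Grp

/-!
# P284 (helper494), T3⁺, (I2): if maximality fails, there are standing data of smaller dimension
-/

open scoped Manifold ContDiff Topology
open Filter Set Metric

noncomputable section

namespace Vale.Agent.P284.H494.T

open Vale.Agent.P272.K Vale.Agent.P284.H894 Vale.Agent.P284.H894.V Vale.Agent.P284.H119.Kaz
  Vale.Agent.P284.H213.Grp Vale.Agent.P284.H494.N Vale.Agent.P284.H988.N Vale.Agent.P284.H136.T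
  Vale.Agent.P284.H213.Q Vale.Agent.P284.H650.T

/-- **(I2)** -/
theorem maxStmt_of {D : Cls} (hM : H213.N.MFN D) : MaxStmt D := by
  intro n q X _ _ _ _ _ _ hDX w E Γ _ _ _ _ p F G K A c h hnk hcc V hV hVspan
  have hmax : ¬ MaxT Γ G q c K := fun hm => hV (hm V hVspan)
  obtain ⟨M, hMn, q₂, L, A₁, c₁, K₁, hq, hL, hc₁, hA₁, hD₁, hK₁, hfg, hnvi, hfr, hnk₁⟩ :=
    maxGrp h.dat h.ker h.fg h.nvi h.fr hnk hcc hmax
  obtain ⟨F₁, hB₁, heq₁, hreg₁⟩ := H213.N.desc h.gal h.dat h.hol h.eqv h.reg M L hL A₁ c₁ hc₁ hA₁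
  have hp₁ := H885.isGalois_toX h.gal M
  have hcon₁ : ConnectedSpace (H885.Quo E M) := H885.connected_quo M
  have hgc₁ := hM n X hDX w h.kah _ _ _ hp₁ q₂ F₁ _ A₁ c₁ hD₁ hB₁ heq₁ hreg₁
  exact ⟨q₂, H885.Quo E M, Γ ⧸ M, inferInstance, hcon₁, inferInstance, inferInstance,
    H885.toX h.gal M, F₁, G.map (QuotientGroup.mk' M), K₁, A₁, c₁, hq,
    ⟨h.kah, hp₁, hB₁, heq₁, hreg₁, hgc₁, hD₁, hK₁, hfg, hnvi, hfr⟩, hnk₁⟩

end Vale.Agent.P284.H494.T
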