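import Vale.Agent.P284.H619.T.Th
import Vale.Agent.P284.H366.J.Disp2

/-!
# P284 (helper494), T3⁺, (T2): the two point potential
-/

open scoped Manifold ContDiff Topology InnerProductSpace ComplexConjugate
open Filter Set Metric

noncomputable section

namespace Vale.Agent.P284.H494.T

open Vale.Agent.P272.K Vale.Agent.P284.H894 Vale.Agent.P284.H894.G Vale.Agent.P284.H894.V
  Vale.Agent.P284.H894.W Vale.Agent.P284.H573 Vale.Agent.P284.H213.Grp Vale.Agent.P284.H395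
  Vale.Agent.P284.H619 Vale.Agent.P284.H625 Vale.Agent.P284.H378 Vale.Agent.P284.H478.G
  Vale.Agent.P284.H988.N Vale.Agent.P284.H494 Vale.Agent.P284.H501 Vale.Agent.P284.H501.Core
  Vale.Agent.P284.H119.Kaz Vale.Agent.P284.H213.Q Vale.Agent.P284.H837.N
  Vale.Agent.P284.H402.A Vale.Agent.P284.H551 Vale.Agent.P284.H366
  Vale.Agent.P284.H224 Vale.Agent.P284.H650.T Vale.Agent.P284.H619.T

section
variable {n q : ℕ} {X E Γ W : Type} [TopologicalSpace X] [T2Space X] [CompactSpace X]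
  [ConnectedSpace X] [ChartedSpace (Cm n) X] [IsManifold 𝓘(ℂ, Cm n) ω X]
  [TopologicalSpace E] [ConnectedSpace E] [Group Γ] [MulAction Γ E]
  [NormedAddCommGroup W] [InnerProductSpace ℂ W] [CompleteSpace W]
  {w : Chart n X → Cm n → Matrix (Fin n) (Fin n) ℂ} {p : E → X} {F : E → Cm q} {c : Γ → Cm q}
  {K : Subgroup Γ} {π : Γ →* (W ≃ₗᵢ[ℂ] W)}
  {S : E → Chart n X → Cm n [⋀^Fin (q + 1)]→L[ℂ] W} {Θ : E → Chart n X → (Cm n →L[ℂ] W)}
  {J : W →SL[starRingEnd ℂ] W}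

/-- the regular values: open, and the fibres over them are connected -/
theorem rv_of (h : Std w p F c K) :
    IsOpen (RV n p F) ∧ Dense (RV n p F) ∧ IsPreconnected (RV n p F) ∧
      ∀ t ∈ RV n p F, IsConnected (F ⁻¹' {t}) := by
  have hper : Per p w F c := ⟨h.hol, h.eqv, h.lat.disc⟩
  obtain ⟨hRo, hRd, hRp, -, -, -, hRc⟩ := H224.rvStmt n q X w E Γ p h.gal F c hper h.reg
  refine ⟨hRo, hRd, hRp, ?_⟩
  obtain ⟨T, -, hTi, hTc⟩ := h.conn
  have hT : ∃ t, t ∉ T := by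
    by_contra hcon
    push Not at hcon
    have : T = univ := eq_univ_of_forall hcon
    rw [this, interior_univ] at hTi
    exact (univ_nonempty (α := Cm q)).ne_empty hTi
  obtain ⟨t, ht⟩ := hT
  exact hRc ⟨t, (hTc t ht).2, (hTc t ht).1⟩

/-- the regular values are stable under the periods -/
theorem rv_add (h : Std w p F c K) (g : Γ) {t : Cm q} (ht : t ∈ RV n p F) : t + c g ∈ RV n p F := by
  have hper : Per p w F c := ⟨h.hol, h.eqv, h.lat.disc⟩
  intro y hy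
  have h1 : F (g⁻¹ • y) = t := by
    have h2 := h.eqv g (g⁻¹ • y)
    rw [smul_inv_smul, hy] at h2
    exact (add_right_cancel h2).symm
  have h3 := ht _ h1
  have h4 := (per_reg_iff (n := n) h.gal hper (g := g) (y := g⁻¹ • y)).2 h3
  rwa [smul_inv_smul] at h4

/-- a system of potentials over the regular values -/
theorem exists_potSys (h : Std w p F c K) (hJ : JDat p F c π S Θ J) :
    ∃ u : Cm q → E → W, H366.J.PotSys n p F (RV n p F)ᶜ J Θ u := by
  classical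
  obtain ⟨B, hB⟩ := h.hol
  obtain ⟨hRo, -, -, hRc⟩ := rv_of h
  have hTh₀ : ThE p F K π Θ univ := thE_of h.gal hB h.eqv hJ.rel
    fun t ht => absurd (mem_univ t) ht
  choose! u hu using fun t ht => hJ.pot t (hRc t ht) ht
  refine ⟨u, hRo.isClosed_compl, fun t ht => hRc t (not_not.1 ht),
    fun y hy => (not_not.1 hy : F y ∈ RV n p F) y rfl, fun y e hy he => ?_,
    fun y e e' hy he he' ξ hξ =>
      hTh₀.change y e e' ((not_not.1 hy : F y ∈ RV n p F) y rfl) he he' ξ hξ, fun t ht => ?_⟩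
  · obtain ⟨G, hG⟩ := exists_jpot h.gal.cov hB hJ.rel ((not_not.1 hy : F y ∈ RV n p F) y rfl) he
    exact ⟨G, he, hG.an, hG.pot⟩
  · exact (hu t (not_not.1 ht)).2

end

/-- **(T2)** -/
theorem twoStmt : TwoStmt := by
  intro n q X _ _ _ _ _ _ w E Γ _ _ _ _ p F c K h W _ _ _ π S Θ J hJ
  obtain ⟨u, hu⟩ := exists_potSys h hJ
  obtain ⟨B, hB⟩ := h.hol
  have hF : HolE n p F := holE_of hB
  have hTh₀ : ThE p F K π Θ univ := thE_of h.gal hB h.eqv hJ.rel
    fun t ht => absurd (mem_univ t) ht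
  refine ⟨fun y y' => u (F y) y' - u (F y) y, ⟨?_, ?_⟩, ?_⟩
  · intro y y' y'' h1 h2 _
    show u (F y) y' - u (F y) y + (u (F y') y'' - u (F y') y') = u (F y) y'' - u (F y) y
    rw [← h1]
    abel
  · intro y y' e e' G G' h1 h2 he he' hG hG'
    obtain ⟨Q, hQ, hD⟩ := H366.J.disp_rel h.gal.cov hF hu (t₀ := F y) (not_not.2 h2)
      (a := y) (b := y') rfl h1.symm ⟨he, hG.an, hG.pot⟩ ⟨he', hG'.an, hG'.pot⟩
    refine ⟨Q, hQ, ?_⟩
    rw [nhds_prod_eq]
    filter_upwards [hD] with z hz hzz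
    rw [hz hzz, H366.J.RJ, H366.J.RJ, map_add, map_sub]
    abel
  · intro g y y' h1 h2
    have hequi : ∀ y₁ e, F y₁ = F y → At e (p y₁) → ∀ ξ ∈ VS p F y₁ e,
        Θ (g • y₁) e ξ = π g (Θ y₁ e ξ) := fun y₁ e hy₁ he ξ hξ =>
      hTh₀.equi g y₁ e (h2 y₁ hy₁) he ξ hξ
    obtain ⟨b, hb⟩ := H366.J.pot_equi h.gal hF h.eqv hJ.isJ.comm hu (g := g) (t := F y)
      (not_not.2 h2) (not_not.2 (rv_add h g h2)) hequi
    show u (F (g • y)) (g • y') - u (F (g • y)) (g • y) = π g (u (F y) y' - u (F y) y)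
    rw [h.eqv, hb y' h1.symm, hb y rfl, map_sub]
    abel

end Vale.Agent.P284.H494.T
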